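import Vale.Agent.P085.Defs
import Vale.Agent.P086.Model.Semicircle
import Vale.Agent.P086.Model.Moments

/-!
P085: the diagonal element of a chain, seen from each of its levels, and its semicircular function.
-/

open scoped InnerProductSpace Topology
open Filter Set

namespace VP085.Target

open VP086

variable {A : Type} [CStarAlgebra A] {H : Type} [NormedAddCommGroup H] [InnerProductSpace ℂ H]

/-! ### Continuous functions by polynomials -/

lemma spectrum_subset {a : A} {R : ℝ} (hR : ‖a‖ ≤ R) : spectrum ℝ a ⊆ Icc (-R) R := fun x hx => by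
  rcases subsingleton_or_nontrivial A with h | h
  · simp at hx
  · exact abs_le.1 ((spectrum.norm_le_norm_of_mem hx).trans hR)

lemma exists_aeval_near {f : ℝ → ℝ} (hf : Continuous f) (R : ℝ) {ε : ℝ} (hε : 0 < ε) :
    ∃ q : Polynomial ℝ, ∀ a : A, IsSelfAdjoint a → ‖a‖ ≤ R →
      ‖cfc f a - Polynomial.aeval a q‖ ≤ ε := by
  obtain ⟨q, hq⟩ := exists_polynomial_near_of_continuousOn (-R) R f hf.continuousOn ε hε
  refine ⟨q, fun a ha haR => ?_⟩
  rw [← cfc_polynomial q a ha, ← cfc_sub f (fun x => q.eval x) a hf.continuousOn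
    q.continuous.continuousOn]
  refine norm_cfc_le hε.le fun x hx => ?_
  rw [Real.norm_eq_abs, abs_sub_comm]
  exact (hq x (spectrum_subset haR hx)).le

lemma cfc_mem {B : StarSubalgebra ℂ A} (hB : IsClosed (B : Set A)) {a : A} (ha : IsSelfAdjoint a)
    (haB : a ∈ B) {f : ℝ → ℝ} (hf : Continuous f) : cfc f a ∈ B := by
  refine hB.closure_subset (Metric.mem_closure_iff.2 fun ε hε => ?_)
  obtain ⟨q, hq⟩ := exists_aeval_near (A := A) hf ‖a‖ (half_pos hε)
  refine ⟨Polynomial.aeval a q, ?_, ?_⟩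
  · clear hq
    induction q using Polynomial.induction_on' with
    | add p r hp hr => rw [map_add]; exact add_mem hp hr
    | monomial k r =>
      rw [Polynomial.aeval_monomial, IsScalarTower.algebraMap_apply ℝ ℂ A]
      exact mul_mem (algebraMap_mem B _) (pow_mem haB k)
  · rw [dist_eq_norm]
    exact (hq a ha le_rfl).trans_lt (half_lt_self hε)

lemma cfc_block {a b p : A} (ha : IsSelfAdjoint a) (hb : IsSelfAdjoint b) (hab : a * p = b * p)
    (hbp : Commute b p) {f : ℝ → ℝ} (hf : Continuous f) : cfc f a * p = cfc f b * p := by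
  refine sub_eq_zero.1 (norm_le_zero_iff.1 (le_of_forall_pos_le_add fun ε hε => ?_))
  rw [zero_add]
  obtain ⟨q, hq⟩ := exists_aeval_near (A := A) hf (max ‖a‖ ‖b‖)
    (show 0 < ε / (2 * (‖p‖ + 1)) by positivity)
  have hpow : ∀ k, a ^ k * p = b ^ k * p := by
    intro k
    induction k with
    | zero => simp
    | succ k ih =>
      calc a ^ (k + 1) * p = a * (a ^ k * p) := by rw [pow_succ', mul_assoc]
        _ = a * (p * b ^ k) := by rw [ih, (hbp.pow_left k).eq]
        _ = b * p * b ^ k := by rw [← mul_assoc, hab]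
        _ = b * (p * b ^ k) := mul_assoc _ _ _
        _ = b ^ (k + 1) * p := by rw [← (hbp.pow_left k).eq, ← mul_assoc, ← pow_succ']
  have hpoly : Polynomial.aeval a q * p = Polynomial.aeval b q * p := by
    clear hq
    induction q using Polynomial.induction_on' with
    | add s r hs hr => rw [map_add, map_add, add_mul, add_mul, hs, hr]
    | monomial k r => rw [Polynomial.aeval_monomial, Polynomial.aeval_monomial, mul_assoc,
        mul_assoc, hpow]
  have hA := hq a ha (le_max_left _ _)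
  have hB := hq b hb (le_max_right _ _)
  have e : cfc f a * p - cfc f b * p =
      (cfc f a - Polynomial.aeval a q) * p - (cfc f b - Polynomial.aeval b q) * p := by
    rw [sub_mul, sub_mul, hpoly]; abel
  rw [e]
  refine (norm_sub_le _ _).trans ((add_le_add (norm_mul_le _ _) (norm_mul_le _ _)).trans ?_)
  have h1 := mul_le_mul_of_nonneg_right (add_le_add hA hB) (norm_nonneg p)
  have h2 : (ε / (2 * (‖p‖ + 1)) + ε / (2 * (‖p‖ + 1))) * ‖p‖ ≤ ε := by
    have : ε / (2 * (‖p‖ + 1)) + ε / (2 * (‖p‖ + 1)) = ε / (‖p‖ + 1) := by field_simp; ring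
    rw [this, div_mul_eq_mul_div, div_le_iff₀ (by positivity)]
    nlinarith
  linarith

variable {S : Fac A H} (C : Chain S)

/-! ### The trace -/

lemma tau_add (x y : A) : S.τ (x + y) = S.τ x + S.τ y := by
  simp [Std.τ, inner_add_right]

lemma tau_sub (x y : A) : S.τ (x - y) = S.τ x - S.τ y := by
  simp [Std.τ, inner_sub_right]

lemma tau_smul (c : ℂ) (x : A) : S.τ (c • x) = c * S.τ x := by
  simp [Std.τ, inner_smul_right]

lemma tau_sum {α : Type*} (t : Finset α) (f : α → A) : S.τ (∑ i ∈ t, f i) = ∑ i ∈ t, S.τ (f i) := by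
  simp [Std.τ, inner_sum]

lemma tau_one : S.τ (1 : A) = 1 := by
  simp [Std.τ, inner_self_eq_norm_sq_to_K, S.norm_one]

lemma norm_ι_le (x : A) : ‖S.ι x‖ ≤ ‖x‖ := by simpa [S.norm_one] using S.left_le x 1

lemma norm_tau_le (x : A) : ‖S.τ x‖ ≤ ‖x‖ := by
  refine (norm_inner_le_norm _ _).trans ?_
  rw [S.norm_one, one_mul]
  exact norm_ι_le x

lemma tau_star_mul_self (x : A) : S.τ (star x * x) = ((‖S.ι x‖ ^ 2 : ℝ) : ℂ) := by
  show ⟪S.ι 1, S.ι (star x * x)⟫_ℂ = _
  rw [← S.inner_ι, inner_self_eq_norm_sq_to_K]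
  simp

lemma nontrivial (S : Fac A H) : Nontrivial A := by
  refine (subsingleton_or_nontrivial A).resolve_left fun h => ?_
  have := S.norm_one
  rw [Subsingleton.elim (1 : A) 0, map_zero, norm_zero] at this
  exact zero_ne_one this

/-! ### One level -/

lemma n_pos (K : ℕ) : 0 < C.n K := lt_of_lt_of_le (by norm_num) (C.four_le K)

lemma cast_n_pos (K : ℕ) : (0 : ℝ) < C.n K := Nat.cast_pos.2 (n_pos C K)

/-- Diagonal matrices of a level. -/
noncomputable def diagHom (K : ℕ) : (Fin (C.n K) → ℂ) →⋆ₐ[ℂ] A where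
  toFun c := ∑ i, c i • C.e K i i
  map_one' := by simp [C.sum_e]
  map_mul' c c' := by
    simp [Finset.sum_mul, Finset.mul_sum, smul_smul, C.mul_e, mul_comm]
  map_zero' := by simp
  map_add' c c' := by simp [add_smul, Finset.sum_add_distrib]
  commutes' r := by
    simp [Algebra.algebraMap_eq_smul_one, ← Finset.smul_sum, C.sum_e]
  map_star' c := by simp [star_sum, star_smul, C.star_e]

lemma norm_diag_le (K : ℕ) {c : Fin (C.n K) → ℝ} {R : ℝ} (hR : 0 ≤ R) (hc : ∀ i, |c i| ≤ R) :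
    ‖∑ i, c i • C.e K i i‖ ≤ R := by
  have h := NonUnitalStarAlgHom.norm_apply_le (diagHom C K) fun i => (c i : ℂ)
  refine le_trans (le_of_eq ?_) (h.trans ((pi_norm_le_iff_of_nonneg hR).2 fun i => ?_))
  · simp [diagHom, Complex.coe_smul]
  · simpa using hc i

lemma norm_e_le (K : ℕ) (i : Fin (C.n K)) : ‖C.e K i i‖ ≤ 1 := by
  classical
  have h := norm_diag_le C K zero_le_one (c := fun j => if j = i then (1 : ℝ) else 0)
    (fun j => by split_ifs <;> simp)
  simpa [ite_smul] using h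

lemma tau_mul_e (K : ℕ) {x : A} (hx : ∀ i j, Commute x (C.e K i j)) (i : Fin (C.n K)) :
    S.τ (x * C.e K i i) = (C.n K : ℂ)⁻¹ * S.τ x := by
  have h : ∀ j, S.τ (x * C.e K i i) = S.τ (x * C.e K j j) := fun j => by
    calc S.τ (x * C.e K i i) = S.τ (x * C.e K i j * C.e K j i) := by
          rw [mul_assoc, C.mul_e, if_pos rfl]
      _ = S.τ (C.e K j i * (x * C.e K i j)) := S.tau_comm _ _
      _ = _ := by rw [← mul_assoc, ← (hx j i).eq, mul_assoc, C.mul_e, if_pos rfl]
  have hs : (C.n K : ℂ) * S.τ (x * C.e K i i) = S.τ x := by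
    calc (C.n K : ℂ) * S.τ (x * C.e K i i) = ∑ _j : Fin (C.n K), S.τ (x * C.e K i i) := by simp
      _ = ∑ j, S.τ (x * C.e K j j) := Finset.sum_congr rfl fun j _ => h j
      _ = S.τ x := by rw [← tau_sum, ← Finset.mul_sum, C.sum_e, mul_one]
  rw [← hs, ← mul_assoc, inv_mul_cancel₀ (Nat.cast_ne_zero.2 (n_pos C K).ne'), one_mul]

/-! ### The diagonal element -/

/-- Approximations of the diagonal element seen from level `K`. -/
noncomputable def dA : ℕ → ℕ → A
  | _, 0 => (1 / 2 : ℝ) • 1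
  | K, M + 1 => (∑ i : Fin (C.n K), (((i : ℕ) : ℝ) / C.n K) • C.e K i i) + (1 / C.n K : ℝ) • dA (K + 1) M

lemma dA_selfAdjoint : ∀ M K, IsSelfAdjoint (dA C K M)
  | 0, K => IsSelfAdjoint.smul (IsSelfAdjoint.all (1 / 2 : ℝ)) (IsSelfAdjoint.one A)
  | M + 1, K => by
    refine (IsSelfAdjoint.add ?_ (IsSelfAdjoint.smul (IsSelfAdjoint.all (1 / C.n K : ℝ)) (dA_selfAdjoint M (K + 1))))
    rw [isSelfAdjoint_iff, star_sum]
    simp [C.star_e]

lemma dA_commute : ∀ M K K', K' < K → ∀ i j, Commute (dA C K M) (C.e K' i j)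
  | 0, K, K', _, i, j => (Commute.one_left _).smul_left _
  | M + 1, K, K', h, i, j =>
    (Commute.sum_left _ _ _ fun k _ =>
      Commute.smul_left (C.comm K K' h.ne' k k i j) _).add_left
      ((dA_commute M (K + 1) K' (by omega) i j).smul_left _)

lemma norm_dA_sub_half : ∀ M K, ‖dA C K M - (1 / 2 : ℝ) • (1 : A)‖ ≤ 1 / 2
  | 0, K => by simp [dA]
  | M + 1, K => by
    have hn := cast_n_pos C K
    have e : dA C K (M + 1) - (1 / 2 : ℝ) • (1 : A) =
        (∑ i : Fin (C.n K), ((((i : ℕ) : ℝ) + 1 / 2) / C.n K - 1 / 2 : ℝ) • C.e K i i) +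
          (1 / C.n K : ℝ) • (dA C (K + 1) M - (1 / 2 : ℝ) • (1 : A)) := by
      simp only [dA, sub_smul, add_div, add_smul, Finset.sum_sub_distrib, Finset.sum_add_distrib,
        ← Finset.smul_sum, C.sum_e, smul_sub, smul_smul]
      rw [show (1 / C.n K * (1 / 2) : ℝ) = 1 / 2 / C.n K by ring]
      abel
    rw [e]
    refine (norm_add_le _ _).trans ?_
    have h1 : ‖∑ i : Fin (C.n K), ((((i : ℕ) : ℝ) + 1 / 2) / C.n K - 1 / 2 : ℝ) • C.e K i i‖ ≤
        1 / 2 - 1 / (2 * C.n K) := by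
      have h4 : (4 : ℝ) ≤ C.n K := by exact_mod_cast C.four_le K
      refine norm_diag_le C K ?_ fun i => ?_
      · rw [sub_nonneg, div_le_div_iff₀ (by positivity) two_pos]
        linarith
      · have hi : (i : ℕ) + 1 ≤ C.n K := i.2
        have hi' : ((i : ℕ) : ℝ) + 1 ≤ C.n K := by exact_mod_cast hi
        rw [abs_le]
        constructor
        · field_simp
          linarith [show (0 : ℝ) ≤ ((i : ℕ) : ℝ) from Nat.cast_nonneg _]
        · field_simp
          linarith
    have h2 : ‖(1 / C.n K : ℝ) • (dA C (K + 1) M - (1 / 2 : ℝ) • (1 : A))‖ ≤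
        1 / (2 * C.n K) := by
      rw [norm_smul, Real.norm_of_nonneg (by positivity)]
      refine (mul_le_mul_of_nonneg_left (norm_dA_sub_half M (K + 1)) (by positivity)).trans ?_
      rw [div_mul_div_comm, one_mul, mul_comm]
    linarith

lemma norm_dA_succ_sub : ∀ M K, ‖dA C K (M + 1) - dA C K M‖ ≤ (1 / 4) ^ M
  | 0, K => (norm_dA_sub_half C 1 K).trans (by norm_num)
  | M + 1, K => by
    have e : dA C K (M + 1 + 1) - dA C K (M + 1) =
        (1 / C.n K : ℝ) • (dA C (K + 1) (M + 1) - dA C (K + 1) M) := by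
      rw [dA, dA.eq_def C K (M + 1)]
      simp [smul_sub]
    rw [e, norm_smul, Real.norm_of_nonneg (by positivity), pow_succ']
    refine mul_le_mul ?_ (norm_dA_succ_sub M (K + 1)) (norm_nonneg _) (by norm_num)
    gcongr
    exact_mod_cast C.four_le K

lemma exists_dEl (K : ℕ) : ∃ x, Tendsto (fun M => dA C K M) atTop (𝓝 x) :=
  cauchySeq_tendsto_of_complete <| cauchySeq_of_le_geometric (1 / 4) 1 (by norm_num) fun M => by
    rw [dist_eq_norm, ← neg_sub, norm_neg, one_mul]
    exact norm_dA_succ_sub C M K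

/-- The diagonal element seen from level `K`. -/
noncomputable def dEl (K : ℕ) : A := (exists_dEl C K).choose

lemma tendsto_dA (K : ℕ) : Tendsto (fun M => dA C K M) atTop (𝓝 (dEl C K)) :=
  (exists_dEl C K).choose_spec

lemma dEl_selfAdjoint (K : ℕ) : IsSelfAdjoint (dEl C K) :=
  tendsto_nhds_unique ((continuous_star.tendsto _).comp (tendsto_dA C K))
    ((tendsto_dA C K).congr fun M => (dA_selfAdjoint C M K).symm)

lemma dEl_commute {K K' : ℕ} (h : K' < K) (i j : Fin (C.n K')) :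
    Commute (dEl C K) (C.e K' i j) :=
  tendsto_nhds_unique ((tendsto_dA C K).mul_const _)
    (((tendsto_dA C K).const_mul _).congr fun M => (dA_commute C M K K' h i j).symm)

lemma dEl_eq (K : ℕ) : dEl C K =
    (∑ i : Fin (C.n K), (((i : ℕ) : ℝ) / C.n K) • C.e K i i) + (1 / C.n K : ℝ) • dEl C (K + 1) :=
  tendsto_nhds_unique ((tendsto_dA C K).comp (tendsto_add_atTop_nat 1))
    (tendsto_const_nhds.add ((tendsto_dA C (K + 1)).const_smul (1 / C.n K : ℝ)))

lemma spectrum_dEl (K : ℕ) : spectrum ℝ (dEl C K) ⊆ Icc 0 1 := by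
  intro x hx
  have hle : ‖dEl C K - (1 / 2 : ℝ) • (1 : A)‖ ≤ 1 / 2 :=
    le_of_tendsto ((tendsto_dA C K).sub_const _).norm
      (Eventually.of_forall fun M => norm_dA_sub_half C M K)
  have ha := dEl_selfAdjoint C K
  have e : cfc (fun t : ℝ => t - 1 / 2) (dEl C K) = dEl C K - (1 / 2 : ℝ) • (1 : A) := by
    rw [cfc_sub _ _, cfc_id' ℝ (dEl C K), cfc_const _ _, Algebra.algebraMap_eq_smul_one]
  have h := (norm_apply_le_norm_cfc (fun t : ℝ => t - 1 / 2) (dEl C K) hx (by fun_prop) ha).trans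
    (e ▸ hle)
  rw [Real.norm_eq_abs, abs_le] at h
  exact ⟨by linarith [h.1], by linarith [h.2]⟩

/-- The affine map onto the `i`-th interval of level `K`. -/
noncomputable def sig (K : ℕ) (i : Fin (C.n K)) (t : ℝ) : ℝ := ((i : ℕ) + t) / C.n K

lemma continuous_sig (K : ℕ) (i : Fin (C.n K)) : Continuous (sig C K i) := by
  unfold sig; fun_prop

lemma cfc_dEl {f : ℝ → ℝ} (hf : Continuous f) (K : ℕ) :
    cfc f (dEl C K) = ∑ i, cfc (fun t => f (sig C K i t)) (dEl C (K + 1)) * C.e K i i := by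
  have hd := dEl_selfAdjoint C (K + 1)
  have hc : ∀ i, Commute (dEl C (K + 1)) (C.e K i i) := fun i => dEl_commute C K.lt_succ_self i i
  conv_lhs => rw [← mul_one (cfc f (dEl C K)), ← C.sum_e K, Finset.mul_sum]
  refine Finset.sum_congr rfl fun i _ => ?_
  rw [cfc_comp' f (sig C K i) (dEl C (K + 1)) hf.continuousOn (continuous_sig C K i).continuousOn hd]
  have e : cfc (sig C K i) (dEl C (K + 1)) =
      ((i : ℕ) / C.n K : ℝ) • (1 : A) + (1 / C.n K : ℝ) • dEl C (K + 1) := by
    rw [show sig C K i = fun t => ((i : ℕ) / C.n K : ℝ) + (1 / C.n K : ℝ) • t by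
      ext t; simp [sig, add_div, smul_eq_mul]; ring]
    rw [cfc_add (R := ℝ) (dEl C (K + 1)) _ _, cfc_const _ _, cfc_smul _ _ _, cfc_id' ℝ _,
      Algebra.algebraMap_eq_smul_one]
  refine cfc_block (dEl_selfAdjoint C K) (cfc_predicate _ _) ?_ ?_ hf
  · rw [e, dEl_eq, add_mul, add_mul, Finset.sum_mul]
    congr 1
    simp [C.mul_e, smul_mul_assoc]
  · exact (hc i).cfc_real _

/-! ### The trace on functions of the diagonal element -/

lemma cfc_commute {f : ℝ → ℝ} {K K' : ℕ} (h : K' < K) (i j : Fin (C.n K')) :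
    Commute (cfc f (dEl C K)) (C.e K' i j) :=
  (dEl_commute C h i j).cfc_real f

lemma tau_cfc_succ {f : ℝ → ℝ} (hf : Continuous f) (K : ℕ) : S.τ (cfc f (dEl C K)) =
    (C.n K : ℂ)⁻¹ * ∑ i, S.τ (cfc (fun t => f (sig C K i t)) (dEl C (K + 1))) := by
  rw [cfc_dEl C hf, tau_sum, Finset.mul_sum]
  exact Finset.sum_congr rfl fun i _ =>
    tau_mul_e C K (fun k l => cfc_commute C K.lt_succ_self k l) i

lemma integral_succ {f : ℝ → ℝ} (hf : Continuous f) (K : ℕ) :
    ∫ t in (0 : ℝ)..1, f t = (C.n K : ℝ)⁻¹ * ∑ i, ∫ t in (0 : ℝ)..1, f (sig C K i t) := by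
  have hn := cast_n_pos C K
  have e : ∀ i : ℕ, ∫ t in (0 : ℝ)..1, f ((i + t) / C.n K) =
      ∫ u in (i : ℝ)..((i + 1 : ℕ) : ℝ), f (u / C.n K) := fun i => by
    rw [intervalIntegral.integral_comp_add_left (fun u => f (u / C.n K))]
    push_cast
    rw [add_zero]
  simp only [sig]
  rw [Fin.sum_univ_eq_sum_range (fun i => ∫ t in (0 : ℝ)..1, f ((i + t) / C.n K))]
  simp only [e]
  rw [intervalIntegral.sum_integral_adjacent_intervals (a := fun i : ℕ => (i : ℝ))
    (fun i _ => (by fun_prop : Continuous fun u => f (u / C.n K)).intervalIntegrable _ _),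
    intervalIntegral.integral_comp_div f hn.ne', smul_eq_mul, Nat.cast_zero, zero_div,
    div_self hn.ne', ← mul_assoc, inv_mul_cancel₀ hn.ne', one_mul]

lemma tau_cfc_near : ∀ (M K : ℕ) (f : ℝ → ℝ), Continuous f → ∀ ε : ℝ,
    (∀ x ∈ Icc (0 : ℝ) 1, ∀ y ∈ Icc (0 : ℝ) 1, |x - y| ≤ (1 / 4) ^ M → |f x - f y| ≤ ε) →
    ‖S.τ (cfc f (dEl C K)) - ((∫ t in (0 : ℝ)..1, f t : ℝ) : ℂ)‖ ≤ 2 * ε
  | 0, K, f, hf, ε, hε => by
    have hd := dEl_selfAdjoint C K
    have hε0 : 0 ≤ ε := (abs_nonneg _).trans (hε 0 (by simp) 0 (by simp) (by simp))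
    have hb : ∀ x ∈ Icc (0 : ℝ) 1, |f x - f 0| ≤ ε := fun x hx =>
      hε x hx 0 (by simp) (by simp [abs_of_nonneg hx.1, hx.2])
    have h1 : ‖S.τ (cfc f (dEl C K)) - (f 0 : ℂ)‖ ≤ ε := by
      have e : cfc (fun t => f t - f 0) (dEl C K) = cfc f (dEl C K) - (f 0 : ℂ) • (1 : A) := by
        rw [cfc_sub _ _ _ hf.continuousOn, cfc_const _ _, Algebra.algebraMap_eq_smul_one,
          Complex.coe_smul]
      calc ‖S.τ (cfc f (dEl C K)) - (f 0 : ℂ)‖ = ‖S.τ (cfc (fun t => f t - f 0) (dEl C K))‖ := by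
            rw [e, tau_sub, tau_smul, tau_one, mul_one]
        _ ≤ ‖cfc (fun t => f t - f 0) (dEl C K)‖ := norm_tau_le _
        _ ≤ ε := norm_cfc_le hε0 fun x hx => by
            simpa using hb x (spectrum_dEl C K hx)
    have h2 : ‖(∫ t in (0 : ℝ)..1, f t) - f 0‖ ≤ ε := by
      have e : (∫ t in (0 : ℝ)..1, f t) - f 0 = ∫ t in (0 : ℝ)..1, (f t - f 0) := by
        rw [intervalIntegral.integral_sub (hf.intervalIntegrable _ _) intervalIntegrable_const]
        simp
      rw [e]
      simpa using intervalIntegral.norm_integral_le_of_norm_le_const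
        (C := ε) (f := fun t => f t - f 0) (a := 0) (b := 1) fun x hx => by
          rw [uIoc_of_le zero_le_one] at hx
          exact hb x ⟨hx.1.le, hx.2⟩
    have h2' : ‖((∫ t in (0 : ℝ)..1, f t : ℝ) : ℂ) - (f 0 : ℂ)‖ ≤ ε := by
      rw [← Complex.ofReal_sub, Complex.norm_real]; exact h2
    calc ‖S.τ (cfc f (dEl C K)) - ((∫ t in (0 : ℝ)..1, f t : ℝ) : ℂ)‖ ≤
        ‖S.τ (cfc f (dEl C K)) - (f 0 : ℂ)‖ +
          ‖((∫ t in (0 : ℝ)..1, f t : ℝ) : ℂ) - (f 0 : ℂ)‖ := by
            refine (norm_sub_le_norm_sub_add_norm_sub _ (f 0 : ℂ) _).trans (le_of_eq ?_)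
            rw [norm_sub_rev (f 0 : ℂ)]
      _ ≤ 2 * ε := by linarith
  | M + 1, K, f, hf, ε, hε => by
    have hn := cast_n_pos C K
    rw [tau_cfc_succ C hf, integral_succ C hf K]
    push_cast
    rw [← mul_sub, ← Finset.sum_sub_distrib, norm_mul, norm_inv, Complex.norm_natCast]
    refine (mul_le_mul_of_nonneg_left ((norm_sum_le _ _).trans (Finset.sum_le_sum fun i _ =>
      tau_cfc_near M (K + 1) (fun t => f (sig C K i t)) (hf.comp (continuous_sig C K i)) ε ?_))
      (by positivity)).trans (le_of_eq ?_)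
    · intro x hx y hy hxy
      have hi : ((i : ℕ) : ℝ) + 1 ≤ C.n K := by exact_mod_cast i.2
      have mem : ∀ z ∈ Icc (0 : ℝ) 1, sig C K i z ∈ Icc (0 : ℝ) 1 := fun z hz => by
        have := hz.1; have := hz.2
        exact ⟨by unfold sig; positivity, by unfold sig; rw [div_le_one hn]; linarith⟩
      refine hε _ (mem x hx) _ (mem y hy) ?_
      have h4 : (4 : ℝ) ≤ C.n K := by exact_mod_cast C.four_le K
      rw [sig, sig, ← sub_div, add_sub_add_left_eq_sub, abs_div, abs_of_pos hn, pow_succ,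
        mul_one_div]
      exact div_le_div₀ (by positivity) hxy (by norm_num) h4
    · simp
      field_simp

lemma tau_cfc {f : ℝ → ℝ} (hf : Continuous f) (K : ℕ) :
    S.τ (cfc f (dEl C K)) = ((∫ t in (0 : ℝ)..1, f t : ℝ) : ℂ) := by
  refine sub_eq_zero.1 (norm_le_zero_iff.1 (le_of_forall_pos_le_add fun ε hε => ?_))
  rw [zero_add]
  obtain ⟨δ, hδ, hδ'⟩ := Metric.uniformContinuousOn_iff_le.1
    (isCompact_Icc.uniformContinuousOn_of_continuous (hf.continuousOn (s := Icc (0 : ℝ) 1)))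
    (ε / 2) (half_pos hε)
  obtain ⟨M, hM⟩ := exists_pow_lt_of_lt_one hδ (show (1 / 4 : ℝ) < 1 by norm_num)
  refine (tau_cfc_near C M K f hf (ε / 2) fun x hx y hy hxy => ?_).trans (le_of_eq (by ring))
  exact hδ' x hx y hy (hxy.trans hM.le)

lemma norm_ι_cfc_sq {g : ℝ → ℝ} (hg : Continuous g) (K : ℕ) :
    ‖S.ι (cfc g (dEl C K))‖ ^ 2 = ∫ t in (0 : ℝ)..1, g t ^ 2 := by
  have h := tau_star_mul_self (S := S) (cfc g (dEl C K))
  have ha : IsSelfAdjoint (cfc g (dEl C K)) := cfc_predicate _ _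
  rw [ha.star_eq, ← cfc_mul g g (dEl C K) hg.continuousOn hg.continuousOn,
    tau_cfc C (hg.fun_mul hg)] at h
  rw [← Complex.ofReal_inj.1 h]
  simp only [sq]

/-! ### The units of level `K` from functions of the diagonal element -/

/-- A trapezium on the `i`-th interval. -/
noncomputable def bump (K : ℕ) (i : Fin (C.n K)) (m : ℕ) (x : ℝ) : ℝ :=
  max 0 (min 1 (min ((m : ℝ) * (x - (i : ℕ) / C.n K))
    ((m : ℝ) * (((i : ℕ) + 1) / C.n K - x))))

lemma continuous_bump (K : ℕ) (i : Fin (C.n K)) (m : ℕ) : Continuous (bump C K i m) := by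
  unfold bump; fun_prop

lemma bump_mem (K : ℕ) (i : Fin (C.n K)) (m : ℕ) (x : ℝ) : bump C K i m x ∈ Icc (0 : ℝ) 1 :=
  ⟨le_max_left _ _, max_le zero_le_one (min_le_left _ _)⟩

/-- The difference to the indicator on each interval. -/
noncomputable def gap (K : ℕ) (i j : Fin (C.n K)) (m : ℕ) (t : ℝ) : ℝ :=
  bump C K i m (sig C K j t) - if j = i then 1 else 0

lemma continuous_gap (K : ℕ) (i j : Fin (C.n K)) (m : ℕ) : Continuous (gap C K i j m) :=
  ((continuous_bump C K i m).comp (continuous_sig C K j)).sub continuous_const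

lemma gap_eventually (K : ℕ) (i j : Fin (C.n K)) {t : ℝ} (ht : t ∈ Ioo (0 : ℝ) 1) :
    ∀ᶠ m : ℕ in atTop, gap C K i j m t = 0 := by
  have hn := cast_n_pos C K
  have hl : sig C K j t - (i : ℕ) / C.n K = ((j : ℕ) - (i : ℕ) + t : ℝ) / C.n K := by
    unfold sig; ring
  have hr : ((i : ℕ) + 1) / C.n K - sig C K j t = ((i : ℕ) + 1 - (j : ℕ) - t : ℝ) / C.n K := by
    unfold sig; ring
  rcases lt_trichotomy (j : ℕ) (i : ℕ) with h | h | h
  · refine Eventually.of_forall fun m => ?_
    have h' : ((j : ℕ) : ℝ) + 1 ≤ (i : ℕ) := by exact_mod_cast h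
    have hneg : (m : ℝ) * (sig C K j t - (i : ℕ) / C.n K) ≤ 0 :=
      mul_nonpos_of_nonneg_of_nonpos (Nat.cast_nonneg _)
        (hl ▸ div_nonpos_of_nonpos_of_nonneg (by linarith [ht.2]) hn.le)
    rw [gap, bump, if_neg (fun e => by simp [e] at h), sub_zero, max_eq_left]
    exact ((min_le_right _ _).trans (min_le_left _ _)).trans hneg
  · obtain rfl : j = i := Fin.ext h
    have h1 : 0 < sig C K j t - (j : ℕ) / C.n K := by
      rw [hl]; simp only [sub_self, zero_add]; exact div_pos ht.1 hn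
    have h2 : 0 < ((j : ℕ) + 1) / C.n K - sig C K j t := by
      rw [hr]; exact div_pos (by linarith [ht.2]) hn
    filter_upwards [(tendsto_natCast_atTop_atTop.atTop_mul_const h1).eventually_ge_atTop 1,
      (tendsto_natCast_atTop_atTop.atTop_mul_const h2).eventually_ge_atTop 1] with m m1 m2
    rw [gap, bump, if_pos rfl, min_eq_left (le_min m1 m2), max_eq_right zero_le_one, sub_self]
  · refine Eventually.of_forall fun m => ?_
    have h' : ((i : ℕ) : ℝ) + 1 ≤ (j : ℕ) := by exact_mod_cast h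
    have hneg : (m : ℝ) * (((i : ℕ) + 1) / C.n K - sig C K j t) ≤ 0 :=
      mul_nonpos_of_nonneg_of_nonpos (Nat.cast_nonneg _)
        (hr ▸ div_nonpos_of_nonpos_of_nonneg (by linarith [ht.1]) hn.le)
    rw [gap, bump, if_neg (fun e => by simp [e] at h), sub_zero, max_eq_left]
    exact ((min_le_right _ _).trans (min_le_right _ _)).trans hneg

lemma tendsto_gap (K : ℕ) (i j : Fin (C.n K)) :
    Tendsto (fun m => ‖S.ι (cfc (gap C K i j m) (dEl C (K + 1)))‖) atTop (𝓝 0) := by
  have hI : Tendsto (fun m : ℕ => ∫ t in (0 : ℝ)..1, gap C K i j m t ^ 2) atTop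
      (𝓝 (∫ _t in (0 : ℝ)..1, (0 : ℝ))) := by
    refine intervalIntegral.tendsto_integral_filter_of_dominated_convergence (fun _ => 1)
      (Eventually.of_forall fun m => ((continuous_gap C K i j m).pow 2).aestronglyMeasurable)
      (Eventually.of_forall fun m => Eventually.of_forall fun t _ => ?_)
      intervalIntegrable_const ?_
    · rw [Real.norm_of_nonneg (sq_nonneg _)]
      have hb := bump_mem C K i m (sig C K j t)
      unfold gap
      split_ifs <;> nlinarith [hb.1, hb.2]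
    · filter_upwards [(MeasureTheory.volume : MeasureTheory.Measure ℝ).ae_ne 1] with t ht1 ht
      rw [uIoc_of_le zero_le_one] at ht
      refine tendsto_const_nhds.congr' ?_
      filter_upwards [gap_eventually C K i j ⟨ht.1, lt_of_le_of_ne ht.2 ht1⟩] with m hm
      simp [hm]
  simp only [intervalIntegral.integral_zero] at hI
  have h := hI.sqrt
  simp only [Real.sqrt_zero] at h
  refine h.congr fun m => ?_
  rw [← norm_ι_cfc_sq C (continuous_gap C K i j m) (K + 1), Real.sqrt_sq (norm_nonneg _)]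

lemma e_diag_limit (K : ℕ) (i : Fin (C.n K)) {ε : ℝ} (hε : 0 < ε) :
    ∃ f : ℝ → ℝ, Continuous f ∧ ‖S.ι (cfc f (dEl C K) - C.e K i i)‖ < ε := by
  have hd := dEl_selfAdjoint C (K + 1)
  have h0 : Tendsto (fun m => ∑ j, ‖S.ι (cfc (gap C K i j m) (dEl C (K + 1)))‖) atTop (𝓝 0) := by
    simpa using tendsto_finsetSum Finset.univ fun j _ => tendsto_gap C K i j
  obtain ⟨m, hm⟩ := (h0.eventually_lt_const hε).exists
  refine ⟨bump C K i m, continuous_bump C K i m, lt_of_le_of_lt ?_ hm⟩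
  have e : cfc (bump C K i m) (dEl C K) - C.e K i i =
      ∑ j, cfc (gap C K i j m) (dEl C (K + 1)) * C.e K j j := by
    rw [cfc_dEl C (continuous_bump C K i m)]
    have hj : ∀ j, cfc (gap C K i j m) (dEl C (K + 1)) * C.e K j j =
        cfc (fun t => bump C K i m (sig C K j t)) (dEl C (K + 1)) * C.e K j j -
          if j = i then C.e K j j else 0 := fun j => by
      unfold gap
      rw [cfc_sub (fun t => bump C K i m (sig C K j t)) _ (dEl C (K + 1))
        ((continuous_bump C K i m).comp (continuous_sig C K j)).continuousOn continuousOn_const,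
        cfc_const _ _ hd, sub_mul]
      split_ifs <;> simp
    simp only [hj, Finset.sum_sub_distrib, Finset.sum_ite_eq', Finset.mem_univ, if_true]
  rw [e, map_sum]
  refine (norm_sum_le _ _).trans (Finset.sum_le_sum fun j _ => ?_)
  exact (S.right_le _ _).trans (mul_le_of_le_one_left (norm_nonneg _) (norm_e_le C K j))

/-! ### The semicircular function -/

/-- The quantile of the semicircular law. -/
noncomputable def qfun (t : ℝ) : ℝ := 2 * Real.cos (Calc.quant t)

/-- The distribution function of the semicircular law. -/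
noncomputable def backFun (y : ℝ) : ℝ := Calc.dist' (Real.arccos (y / 2))

lemma continuous_qfun : Continuous qfun :=
  (Real.continuous_cos.comp Calc.quant.continuous).const_mul 2

lemma continuous_backFun : Continuous backFun :=
  Calc.continuous_dist'.comp (Real.continuous_arccos.comp (continuous_id.div_const 2))

lemma backFun_qfun {t : ℝ} (ht : t ∈ Icc (0 : ℝ) 1) : backFun (qfun t) = t := by
  have h := Calc.quant_mem ht
  rw [backFun, qfun, mul_div_assoc, mul_comm, div_mul_cancel₀ _ two_ne_zero,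
    Real.arccos_cos h.1 h.2, Calc.dist'_quant]

/-- The semicircular element seen from level `K`. -/
noncomputable def cEl (K : ℕ) : A := cfc qfun (dEl C K)

lemma cEl_selfAdjoint (K : ℕ) : IsSelfAdjoint (cEl C K) := cfc_predicate _ _

lemma integral_qfun_pow (k : ℕ) : ∫ t in (0 : ℝ)..1, qfun t ^ k = Model.scMoment k := by
  have h := intervalIntegral.integral_comp_mul_deriv (a := (0 : ℝ)) (b := Real.pi)
    (g := fun t => qfun t ^ k) (fun p _ => Calc.hasDerivAt_dist' p) (by fun_prop)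
    (continuous_qfun.pow k)
  rw [Calc.dist'_zero, Calc.dist'_pi] at h
  rw [← h, Model.scMoment, ← intervalIntegral.integral_const_mul]
  refine intervalIntegral.integral_congr fun p _ => ?_
  simp only [Function.comp_apply, qfun, Calc.quant_dist']
  ring

lemma tau_cEl_pow (K k : ℕ) : S.τ (cEl C K ^ k) = (Model.scMoment k : ℂ) := by
  rw [cEl, ← cfc_pow qfun k (dEl C K) continuous_qfun.continuousOn (dEl_selfAdjoint C K),
    tau_cfc C (continuous_qfun.fun_pow k), integral_qfun_pow]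

lemma norm_cEl_le (K : ℕ) : ‖cEl C K‖ ≤ 2 :=
  norm_cfc_le two_pos.le fun x _ => by
    rw [qfun, norm_mul, Real.norm_two, Real.norm_eq_abs]
    linarith [Real.abs_cos_le_one (Calc.quant x)]

lemma cfc_dEl_eq_cEl {f : ℝ → ℝ} (hf : Continuous f) (K : ℕ) :
    cfc f (dEl C K) = cfc (fun y => f (backFun y)) (cEl C K) := by
  rw [cEl, ← cfc_comp' (fun y => f (backFun y)) qfun (dEl C K)
    (hf.comp continuous_backFun).continuousOn continuous_qfun.continuousOn (dEl_selfAdjoint C K)]
  exact cfc_congr fun x hx => by simp only [backFun_qfun (spectrum_dEl C K hx)]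

end VP085.Target
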