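import Vale.Agent.P085.Target.Diag

/-!
P085: countably many semicircular targets which, with the units of a chain, recover everything.
-/

open scoped InnerProductSpace Topology ComplexConjugate
open Filter Set

namespace VP085.Target

open VP086

variable {A : Type} [CStarAlgebra A] {H : Type} [NormedAddCommGroup H] [InnerProductSpace ℂ H]
  {S : Fac A H} (C : Chain S)

/-! ### Conjugation -/

/-- Conjugation by a unitary. -/
def conjHom (W : unitary A) : A →⋆ₐ[ℂ] A where
  toFun x := (W : A) * x * star (W : A)
  map_one' := by simp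
  map_mul' x y := by
    calc (W : A) * (x * y) * star (W : A) = (W : A) * x * (star (W : A) * (W : A)) * y * star (W : A) := by
          rw [Unitary.coe_star_mul_self, mul_one, ← mul_assoc]
      _ = _ := by simp only [mul_assoc]
  map_zero' := by simp
  map_add' x y := by simp [mul_add, add_mul]
  commutes' r := by
    rw [← Algebra.commutes r (W : A), mul_assoc, Unitary.mul_star_self_of_mem W.2, mul_one]
  map_star' x := by simp [mul_assoc]

lemma conjHom_apply (W : unitary A) (x : A) : conjHom W x = (W : A) * x * star (W : A) := rfl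

lemma conjHom_mul (V W : unitary A) (x : A) : conjHom (V * W) x = conjHom V (conjHom W x) := by
  simp [conjHom_apply, mul_assoc]

lemma norm_ι_conj_le (W : unitary A) (x : A) : ‖S.ι (conjHom W x)‖ ≤ ‖S.ι x‖ := by
  rw [conjHom_apply]
  refine ((S.right_le _ _).trans (mul_le_mul_of_nonneg_left (S.left_le _ _) (norm_nonneg _))).trans ?_
  rw [norm_star, ← mul_assoc]
  exact mul_le_of_le_one_left (norm_nonneg _)
    (mul_le_one₀ (norm_unitary_le W) (norm_nonneg _) (norm_unitary_le W))

lemma tau_conj (W : unitary A) (x : A) : S.τ (conjHom W x) = S.τ x := by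
  show ⟪S.ι 1, S.ι ((W : A) * x * star (W : A))⟫_ℂ = _
  rw [S.tau_comm, ← mul_assoc, Unitary.coe_star_mul_self, one_mul]
  rfl

lemma semicircular_conj (W : unitary A) (K : ℕ) :
    Semicircular S.toStd (conjHom W (cEl C K)) := by
  refine ⟨(cEl_selfAdjoint C K).map _, ?_, fun m => ?_⟩
  · exact (NonUnitalStarAlgHom.norm_apply_le (conjHom W) _).trans (norm_cEl_le C K)
  · simp only [← map_pow, tau_conj, tau_cEl_pow]
    exact_mod_cast Model.scMoment_rec m

lemma conj_e_diag_mem {s : Set A} {W : unitary A} {K : ℕ}
    (hc : conjHom W (cEl C K) ∈ l2Closure S.toStd s) (i : Fin (C.n K)) :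
    conjHom W (C.e K i i) ∈ l2Closure S.toStd s := by
  refine mem_l2Closure_of_forall S.toStd fun ε hε => ?_
  obtain ⟨f, hf, hlt⟩ := e_diag_limit C K i hε
  refine ⟨conjHom W (cfc f (dEl C K)), ?_, ?_⟩
  · rw [cfc_dEl_eq_cEl C hf]
    have hcl : IsClosed (((l2Closure S.toStd s).comap (conjHom W)) : Set A) :=
      (isClosed_l2Closure S.toStd s).preimage
        (AddMonoidHomClass.continuous_of_bound (conjHom W) 1 fun x => by
          simpa using NonUnitalStarAlgHom.norm_apply_le (conjHom W) x)
    exact cfc_mem hcl (cEl_selfAdjoint C K) hc (hf.comp continuous_backFun)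
  · rw [← map_sub]
    exact (norm_ι_conj_le W _).trans_lt hlt

/-! ### The symmetries of a level -/

lemma symm_sq {p m : A} (hp : p * p = p) (h1 : p * m = m) (h2 : m * p = m) (h3 : m * m = p) :
    (1 - p + m) * (1 - p + m) = 1 := by
  simp only [add_mul, sub_mul, mul_add, mul_sub, one_mul, mul_one, hp, h1, h2, h3]
  abel

/-- `1/√2`. -/
noncomputable def rt : ℂ := ((Real.sqrt 2)⁻¹ : ℝ)

lemma rt_sq : rt * rt = 1 / 2 := by
  rw [rt, ← Complex.ofReal_mul, ← mul_inv, Real.mul_self_sqrt two_pos.le]
  norm_num

lemma rt_star : star rt = rt := Complex.conj_ofReal _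

/-- The two phases. -/
noncomputable def phase (b : Bool) : ℂ := if b then Complex.I else 1

lemma phase_mul_star (b : Bool) : phase b * star (phase b) = 1 := by
  cases b <;> simp [phase]

/-- A symmetry of level `K` mixing the `i`-th and `j`-th unit. -/
noncomputable def symmEl (K : ℕ) (i j : Fin (C.n K)) (b : Bool) : A :=
  1 - (C.e K i i + C.e K j j) +
    rt • (C.e K i i - C.e K j j + phase b • C.e K j i + star (phase b) • C.e K i j)

lemma symmEl_star (K : ℕ) (i j : Fin (C.n K)) (b : Bool) :
    star (symmEl C K i j b) = symmEl C K i j b := by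
  simp only [symmEl, star_add, star_sub, star_one, star_smul, rt_star, star_star, C.star_e]
  abel_nf

lemma symmEl_mem_unitary (K : ℕ) {i j : Fin (C.n K)} (hij : i ≠ j) (b : Bool) :
    symmEl C K i j b ∈ unitary A := by
  have hji := hij.symm
  have h : symmEl C K i j b * symmEl C K i j b = 1 := by
    refine symm_sq ?_ ?_ ?_ ?_
    · simp [mul_add, add_mul, C.mul_e, hij, hji]
    · simp [mul_add, add_mul, mul_sub, C.mul_e, hij, hji]
    · simp [mul_add, add_mul, sub_mul, C.mul_e, hij, hji]
      module
    · rw [smul_mul_smul_comm, rt_sq]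
      simp only [mul_add, add_mul, mul_sub, sub_mul, smul_mul_assoc, mul_smul_comm, C.mul_e, hij,
        hji, if_true, if_false, smul_zero, add_zero, sub_zero, zero_sub]
      match_scalars <;> first
        | linear_combination (1 / 2 : ℂ) * phase_mul_star b
        | ring
  exact Unitary.mem_iff.2 ⟨by rw [symmEl_star, h], by rw [symmEl_star, h]⟩

lemma symmEl_conj (K : ℕ) {i j : Fin (C.n K)} (hij : i ≠ j) (b : Bool) :
    symmEl C K i j b * C.e K i i * star (symmEl C K i j b) =
      (1 / 2 : ℂ) • (C.e K i i + C.e K j j + phase b • C.e K j i + star (phase b) • C.e K i j) := by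
  have hji := hij.symm
  have h1 : symmEl C K i j b * C.e K i i = rt • (C.e K i i + phase b • C.e K j i) := by
    simp [symmEl, add_mul, sub_mul, C.mul_e, hji]
  have h2 : C.e K i i * symmEl C K i j b = rt • (C.e K i i + star (phase b) • C.e K i j) := by
    simp [symmEl, mul_add, mul_sub, C.mul_e, hij]
  rw [symmEl_star]
  calc symmEl C K i j b * C.e K i i * symmEl C K i j b
      = (symmEl C K i j b * C.e K i i) * (C.e K i i * symmEl C K i j b) := by
        rw [mul_assoc, mul_assoc, ← mul_assoc (C.e K i i), C.mul_e, if_pos rfl]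
    _ = _ := by
        rw [h1, h2, smul_mul_smul_comm, rt_sq]
        simp only [mul_add, add_mul, smul_mul_assoc, mul_smul_comm, C.mul_e, if_true]
        match_scalars <;> first
          | linear_combination (1 / 2 : ℂ) * phase_mul_star b
          | ring

/-- The symmetries of a level, and one. -/
noncomputable def symmU (K : ℕ) : Option (Fin (C.n K) × Fin (C.n K) × Bool) → unitary A
  | none => 1
  | some (i, j, b) => if h : i = j then 1 else ⟨symmEl C K i j b, symmEl_mem_unitary C K h b⟩

lemma conj_units_mem {s : Set A} {w : unitary A} {K : ℕ}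
    (hT : ∀ p, conjHom (w * symmU C K p) (cEl C K) ∈ l2Closure S.toStd s) (i j : Fin (C.n K)) :
    conjHom w (C.e K i j) ∈ l2Closure S.toStd s := by
  set B := (l2Closure S.toStd s).comap (conjHom w)
  show C.e K i j ∈ B
  have hall : ∀ p k, conjHom (symmU C K p) (C.e K k k) ∈ B := fun p k => by
    show conjHom w (conjHom (symmU C K p) (C.e K k k)) ∈ l2Closure S.toStd s
    rw [← conjHom_mul]
    exact conj_e_diag_mem C (hT p) k
  have hdiag : ∀ k, C.e K k k ∈ B := fun k => by
    simpa [symmU, conjHom_apply] using hall none k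
  by_cases hij : i = j
  · subst hij; exact hdiag i
  have hX : ∀ b, phase b • C.e K j i + star (phase b) • C.e K i j ∈ B := by
    intro b
    have hm := hall (some (i, j, b)) i
    simp only [symmU, dif_neg hij, conjHom_apply, symmEl_conj C K hij b] at hm
    have hd := sub_mem (SMulMemClass.smul_mem (2 : ℂ) hm) (add_mem (hdiag i) (hdiag j))
    convert hd using 1
    simp [smul_smul]
    abel
  have h1 := hX false
  have h2 := SMulMemClass.smul_mem Complex.I (hX true)
  have h := SMulMemClass.smul_mem (1 / 2 : ℂ) (add_mem h1 h2)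
  convert h using 1
  simp [phase, smul_smul, smul_add]
  module

/-! ### Recovering a unitary -/

lemma unitary_mem {s : Set A} (hu : C.units ⊆ l2Closure S.toStd s) {w : unitary A}
    (hw : ∀ K i j, conjHom w (C.e K i j) ∈ l2Closure S.toStd s)
    (hne : S.τ (star (w : A)) ≠ 0) : (w : A) ∈ l2Closure S.toStd s := by
  suffices hm : S.τ (star (w : A)) • (w : A) ∈ l2Closure S.toStd s by
    simpa [smul_smul, inv_mul_cancel₀ hne] using
      SMulMemClass.smul_mem ((S.τ (star (w : A)))⁻¹) hm
  have hK : ∀ K, (w : A) * avgTo C.n C.e K (star (w : A)) ∈ l2Closure S.toStd s := by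
    intro K
    induction K with
    | zero => simp [avgTo]
    | succ K ih =>
      rw [avgTo, twirl, mul_smul_comm, Finset.mul_sum]
      refine SMulMemClass.smul_mem _ (sum_mem fun i _ => ?_)
      rw [Finset.mul_sum]
      refine sum_mem fun j _ => ?_
      have e : (w : A) * (C.e K i j * avgTo C.n C.e K (star (w : A)) * C.e K j i) =
          conjHom w (C.e K i j) * ((w : A) * avgTo C.n C.e K (star (w : A))) * C.e K j i := by
        rw [conjHom_apply]
        simp only [mul_assoc]
        rw [← mul_assoc (star (w : A)) (w : A), Unitary.coe_star_mul_self, one_mul]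
      rw [e]
      exact mul_mem (mul_mem (hw K i j) ih) (hu ⟨K, j, i, rfl⟩)
  refine mem_l2Closure_of_forall S.toStd fun ε hε => ?_
  obtain ⟨K, hKε⟩ := (Metric.tendsto_atTop.1 (C.scal (star (w : A))) ε hε)
  have h := hKε K le_rfl
  refine ⟨_, hK K, ?_⟩
  rw [show (w : A) * avgTo C.n C.e K (star (w : A)) - S.τ (star (w : A)) • (w : A) =
    (w : A) * (avgTo C.n C.e K (star (w : A)) - S.τ (star (w : A)) • (1 : A)) by
      rw [mul_sub, mul_smul_comm, mul_one]]
  refine ((S.left_le _ _).trans (mul_le_of_le_one_left (norm_nonneg _) (norm_unitary_le w))).trans_lt ?_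
  rwa [map_sub, ← dist_eq_norm]

/-! ### A countable family of unitaries -/

lemma tau_star (x : A) : S.τ (star x) = conj (S.τ x) := by
  show ⟪S.ι 1, S.ι (star x)⟫_ℂ = conj ⟪S.ι 1, S.ι x⟫_ℂ
  rw [inner_conj_symm, S.inner_ι x 1, mul_one]

lemma exists_unitary_of_small {a : A} (ha : IsSelfAdjoint a) (han : ‖a‖ ≤ 1 / 2)
    (S : Fac A H) : ∃ w : unitary A, (w : A) + star (w : A) = (2 : ℂ) • a ∧
      S.τ (star (w : A)) ≠ 0 := by
  have := nontrivial S
  set g : ℝ → ℝ := fun x => Real.sqrt (1 - x * x)
  set r : ℝ → ℝ := fun x => Real.sqrt (g x)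
  have hg : Continuous g := by fun_prop
  have hr : Continuous r := by fun_prop
  set z := cfc g a with hz
  have hzs : star z = z := (cfc_predicate g a : IsSelfAdjoint z).star_eq
  have hcomm : a * z = z * a := (((Commute.refl a).cfc_real g).eq).symm
  have hsum : a * a + z * z = 1 := by
    conv_lhs => rw [hz, ← cfc_id' ℝ a ha]
    rw [cfc_id' ℝ a ha, ← cfc_mul g g a]
    conv_lhs => arg 1; rw [← cfc_id' ℝ a ha, ← cfc_mul _ _ a]
    rw [← cfc_add (R := ℝ) a _ _, ← cfc_const_one ℝ a]
    refine cfc_congr fun x hx => ?_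
    have := spectrum_subset han hx
    simp only [g]
    rw [Real.mul_self_sqrt (by nlinarith [this.1, this.2])]
    ring
  have hzy : z = star (cfc r a) * cfc r a := by
    rw [(cfc_predicate r a : IsSelfAdjoint (cfc r a)).star_eq, ← cfc_mul r r a]
    refine cfc_congr fun x _ => ?_
    simp only [r]
    rw [Real.mul_self_sqrt (Real.sqrt_nonneg _)]
  have hw : a + Complex.I • z ∈ unitary A := by
    constructor
    · simp only [star_add, star_smul, ha.star_eq, hzs, Complex.star_def, Complex.conj_I, add_mul,
        mul_add, smul_mul_assoc, mul_smul_comm, hcomm]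
      rw [← hsum]
      match_scalars <;> first
        | linear_combination -Complex.I_sq
        | ring
    · simp only [star_add, star_smul, ha.star_eq, hzs, Complex.star_def, Complex.conj_I, add_mul,
        mul_add, smul_mul_assoc, mul_smul_comm, hcomm]
      rw [← hsum]
      match_scalars <;> first
        | linear_combination -Complex.I_sq
        | ring
  refine ⟨⟨_, hw⟩, ?_, ?_⟩
  · simp [ha.star_eq, hzs, Complex.conj_I]
    module
  · intro h0
    have him := congrArg Complex.im h0
    have hra : (S.τ a).im = 0 := by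
      have := congrArg Complex.im (tau_star (S := S) a)
      rw [ha.star_eq, Complex.conj_im] at this
      linarith
    have hrz : S.τ z = ((‖S.ι (cfc r a)‖ ^ 2 : ℝ) : ℂ) := by rw [hzy]; exact tau_star_mul_self _
    simp only [star_add, star_smul, ha.star_eq, hzs, tau_add, tau_smul, hrz, Complex.add_im,
      Complex.mul_im, Complex.ofReal_im, Complex.ofReal_re, Complex.star_def, Complex.conj_I,
      Complex.neg_im, Complex.I_im, Complex.neg_re, Complex.I_re, hra, Complex.zero_im] at him
    have hy : cfc r a = 0 := S.faithful _ (norm_eq_zero.1 (by nlinarith))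
    rw [hzy, hy, mul_zero, zero_mul, add_zero] at hsum
    have := norm_mul_le a a
    rw [hsum, CStarRing.norm_one] at this
    nlinarith [norm_nonneg a]

theorem targetSpec : TargetSpec := by
  intro A _ H _ _ S C hsep
  obtain ⟨D, hD⟩ := hsep
  set part : ℕ × Bool → A := fun p =>
    if p.2 then (-(Complex.I / 2)) • (D p.1 - star (D p.1)) else (1 / 2 : ℂ) • (D p.1 + star (D p.1))
  have hps : ∀ p, IsSelfAdjoint (part p) := by
    rintro ⟨i, b⟩
    rw [isSelfAdjoint_iff]
    cases b <;> simp [part, smul_sub, sub_eq_add_neg, add_comm, neg_div]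
  set sc : ℕ × Bool → ℝ := fun p => 1 / (2 * (‖part p‖ + 1))
  have hsc : ∀ p, 0 < sc p := fun p => by positivity
  have hsmall : ∀ p, ‖sc p • part p‖ ≤ 1 / 2 := fun p => by
    rw [norm_smul, Real.norm_of_nonneg (hsc p).le]
    simp only [sc, div_mul_eq_mul_div, one_mul]
    rw [div_le_iff₀ (by positivity)]
    linarith
  choose w hwa hwt using fun p =>
    exists_unitary_of_small ((IsSelfAdjoint.all (sc p)).smul (hps p)) (hsmall p) S
  refine ⟨Set.range fun q : Σ x : (ℕ × Bool) × ℕ, Option (Fin (C.n x.2) × Fin (C.n x.2) × Bool) =>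
    conjHom (w q.1.1 * symmU C q.1.2 q.2) (cEl C q.1.2), Set.countable_range _, ?_, ?_⟩
  · rintro - ⟨q, rfl⟩
    exact semicircular_conj C _ _
  · intro s hu hT x
    have hwm : ∀ p, (w p : A) ∈ l2Closure S.toStd s := fun p =>
      unitary_mem C hu (fun K i j => conj_units_mem C (fun o => hT ⟨⟨(p, K), o⟩, rfl⟩) i j) (hwt p)
    have hpm : ∀ p, part p ∈ l2Closure S.toStd s := fun p => by
      have h := SMulMemClass.smul_mem ((1 / 2 : ℂ) * ((sc p)⁻¹ : ℝ))
        (add_mem (hwm p) (star_mem (hwm p)))
      convert h using 1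
      rw [hwa, ← Complex.coe_smul, smul_smul, smul_smul]
      conv_lhs => rw [← one_smul ℂ (part p)]
      congr 1
      have : (sc p : ℂ) ≠ 0 := Complex.ofReal_ne_zero.2 (hsc p).ne'
      push_cast
      field_simp
    have hDm : ∀ i, D i ∈ l2Closure S.toStd s := fun i => by
      convert add_mem (hpm (i, false)) (SMulMemClass.smul_mem Complex.I (hpm (i, true))) using 1
      simp only [part, if_true, if_false, smul_smul, Bool.false_eq_true]
      rw [show Complex.I * -(Complex.I / 2) = (1 / 2 : ℂ) by
        linear_combination (-(1 / 2) : ℂ) * Complex.I_mul_I]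
      module
    refine mem_l2Closure_of_forall S.toStd fun ε hε => ?_
    obtain ⟨i, hi⟩ := hD x ε hε
    exact ⟨D i, hDm i, hi⟩

end VP085.Target

namespace VP085

/-- Countably many semicircular targets recover everything. -/
theorem targetSpec : TargetSpec := Target.targetSpec

end VP085
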